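import Mathlib

namespace Vale.Agent.Results.P344.TwoN

open Finset

/-- A gate of a linear circuit. The natural numbers are positions in the list of values computed so
far (the inputs come first). -/
inductive Gate
  | add (i j : ℕ)
  | sub (i j : ℕ)
  | smul (c : ℂ) (i : ℕ)

/-- The value a gate computes from the list `acc` of earlier values; a position outside the list
reads the constant `0`. -/
def Gate.value {M : Type*} [AddCommGroup M] [Module ℂ M] (acc : List M) : Gate → M
  | .add i j => acc.getD i 0 + acc.getD j 0
  | .sub i j => acc.getD i 0 - acc.getD j 0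
  | .smul c i => c • acc.getD i 0

/-- Run a circuit (a list of gates) on a list of inputs: each gate appends its value. -/
def run {M : Type*} [AddCommGroup M] [Module ℂ M] (inp : List M) (gs : List Gate) : List M :=
  gs.foldl (fun acc g => acc ++ [g.value acc]) inp

lemma run_concat {M : Type*} [AddCommGroup M] [Module ℂ M] (inp : List M) (gs : List Gate)
    (g : Gate) : run inp (gs ++ [g]) = run inp gs ++ [g.value (run inp gs)] := by
  unfold run
  rw [List.foldl_concat]

lemma value_map {M N : Type*} [AddCommGroup M] [Module ℂ M] [AddCommGroup N] [Module ℂ N]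
    (φ : M →ₗ[ℂ] N) (acc : List M) (g : Gate) : g.value (acc.map φ) = φ (g.value acc) := by
  have h : ∀ i, (acc.map φ).getD i 0 = φ (acc.getD i 0) := by
    intro i
    have := List.getD_map acc (0 : M) (n := i) φ
    rwa [map_zero] at this
  cases g with
  | add i j =>
    show (acc.map φ).getD i 0 + (acc.map φ).getD j 0 = φ (acc.getD i 0 + acc.getD j 0)
    rw [h, h, map_add]
  | sub i j =>
    show (acc.map φ).getD i 0 - (acc.map φ).getD j 0 = φ (acc.getD i 0 - acc.getD j 0)
    rw [h, h, map_sub]
  | smul c i =>
    show c • (acc.map φ).getD i 0 = φ (c • acc.getD i 0)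
    rw [h, map_smul]

lemma run_map {M N : Type*} [AddCommGroup M] [Module ℂ M] [AddCommGroup N] [Module ℂ N]
    (φ : M →ₗ[ℂ] N) (inp : List M) (gs : List Gate) :
    run (inp.map φ) gs = (run inp gs).map φ := by
  induction gs using List.reverseRecOn with
  | nil => simp [run]
  | append_singleton gs g ih =>
    rw [run_concat, run_concat, ih, value_map]
    simp

lemma getD_mem_or {M : Type*} [Zero M] (acc : List M) (i : ℕ) :
    acc.getD i 0 ∈ acc ∨ acc.getD i 0 = 0 := by
  by_cases h : i < acc.length
  · left
    rw [List.getD_eq_getElem _ _ h]
    exact List.getElem_mem h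
  · right
    exact List.getD_eq_default _ _ (by omega)

/-- a linear form (coefficient vector) with all coefficients nonzero -/
def Full {n : ℕ} (a : Fin n → ℂ) : Prop := ∀ i, a i ≠ 0

/-- supports are monochromatic -/
def Mono {n : ℕ} (col : Fin n → Fin n) (a : Fin n → ℂ) : Prop :=
  ∀ i j, a i ≠ 0 → a j ≠ 0 → col i = col j

def InvA (n : ℕ) (acc : List (Fin n → ℂ)) (β : ℕ) : Prop :=
  n ≤ β + 2 ∨ ((∀ a ∈ acc, ¬ Full a) ∧
    ∃ col : Fin n → Fin n, (∀ a ∈ acc, Mono col a) ∧ n ≤ (univ.image col).card + β)

open Classical in
def InvB (n : ℕ) (acc : List (Fin n → ℂ)) (γ : ℕ) : Prop :=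
  ∃ S : Finset (Fin n → ℂ), S.card ≤ γ ∧ ∀ a ∈ acc, Full a → ∃ s ∈ S, ∃ c : ℂ, a = c • s

def Inv (n : ℕ) (acc : List (Fin n → ℂ)) (l : ℕ) : Prop :=
  ∃ β γ, β + γ ≤ l ∧ InvA n acc β ∧ InvB n acc γ

lemma not_full_zero {n : ℕ} (hn : 2 ≤ n) : ¬ Full (0 : Fin n → ℂ) := by
  intro h
  exact h ⟨0, by omega⟩ rfl

lemma mono_colour {n : ℕ} (hn : 2 ≤ n) (col : Fin n → Fin n) (a : Fin n → ℂ) (h : Mono col a) :
    ∃ c, ∀ i, a i ≠ 0 → col i = c := by
  by_cases hex : ∃ i, a i ≠ 0
  · obtain ⟨i0, hi0⟩ := hex
    exact ⟨col i0, fun i hi => h i i0 hi hi0⟩
  · push Not at hex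
    exact ⟨⟨0, by omega⟩, fun i hi => absurd (hex i) hi⟩

/-- the step of the invariant for a gate whose value has support inside the union of two earlier
supports -/
lemma step_binary {n : ℕ} (hn : 2 ≤ n) (acc : List (Fin n → ℂ)) (l : ℕ) (h : Inv n acc l)
    (u v w : Fin n → ℂ) (hu : u ∈ acc ∨ u = 0) (hv : v ∈ acc ∨ v = 0)
    (hw : ∀ i, w i ≠ 0 → u i ≠ 0 ∨ v i ≠ 0) : Inv n (acc ++ [w]) (l + 1) := by
  classical
  obtain ⟨β, γ, hl, hA, S, hS, hB⟩ := h
  by_cases hf : Full w
  · -- a new full value
    refine ⟨β, γ + 1, by omega, ?_, insert w S, ?_, ?_⟩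
    · rcases hA with hA | ⟨_, col, hmono, hcard⟩
      · exact Or.inl hA
      · left
        have mu : Mono col u := by
          rcases hu with hu | hu
          · exact hmono u hu
          · subst hu; intro i j hi; exact absurd rfl hi
        have mv : Mono col v := by
          rcases hv with hv | hv
          · exact hmono v hv
          · subst hv; intro i j hi; exact absurd rfl hi
        obtain ⟨cu, hcu⟩ := mono_colour hn col u mu
        obtain ⟨cv, hcv⟩ := mono_colour hn col v mv
        have hsub : univ.image col ⊆ {cu, cv} := by
          intro c hc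
          obtain ⟨i, _, rfl⟩ := Finset.mem_image.mp hc
          rcases hw i (hf i) with h1 | h1
          · simp [hcu i h1]
          · simp [hcv i h1]
        have : (univ.image col).card ≤ 2 := le_trans (Finset.card_le_card hsub) Finset.card_le_two
        omega
    · exact le_trans (Finset.card_insert_le _ _) (by omega)
    · intro a ha hfa
      rcases List.mem_append.mp ha with ha | ha
      · obtain ⟨s, hs, c, hc⟩ := hB a ha hfa
        exact ⟨s, Finset.mem_insert_of_mem hs, c, hc⟩
      · have : a = w := by simpa using ha
        subst this
        exact ⟨a, Finset.mem_insert_self _ _, 1, by simp⟩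
  · -- a new value that is not full
    refine ⟨β + 1, γ, by omega, ?_, S, hS, ?_⟩
    · rcases hA with hA | ⟨hnf, col, hmono, hcard⟩
      · exact Or.inl (by omega)
      · right
        refine ⟨?_, ?_⟩
        · intro a ha
          rcases List.mem_append.mp ha with ha | ha
          · exact hnf a ha
          · have : a = w := by simpa using ha
            subst this
            exact hf
        · have mu : Mono col u := by
            rcases hu with hu | hu
            · exact hmono u hu
            · subst hu; intro i j hi; exact absurd rfl hi
          have mv : Mono col v := by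
            rcases hv with hv | hv
            · exact hmono v hv
            · subst hv; intro i j hi; exact absurd rfl hi
          obtain ⟨cu, hcu⟩ := mono_colour hn col u mu
          obtain ⟨cv, hcv⟩ := mono_colour hn col v mv
          refine ⟨fun i => if col i = cv then cu else col i, ?_, ?_⟩
          · intro a ha
            rcases List.mem_append.mp ha with ha | ha
            · intro i j hi hj
              have := hmono a ha i j hi hj
              simp only [this]
            · have : a = w := by simpa using ha
              subst this
              have hc : ∀ i, a i ≠ 0 → (if col i = cv then cu else col i) = cu := by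
                intro i hi
                by_cases h1 : col i = cv
                · simp [h1]
                · rcases hw i hi with h2 | h2
                  · simp [hcu i h2]
                  · exact absurd (hcv i h2) h1
              intro i j hi hj
              simp only []
              rw [hc i hi, hc j hj]
          · have hsub : (univ.image col).erase cv ⊆
                univ.image (fun i => if col i = cv then cu else col i) := by
              intro c hc
              obtain ⟨hne, hc⟩ := Finset.mem_erase.mp hc
              obtain ⟨i, _, rfl⟩ := Finset.mem_image.mp hc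
              refine Finset.mem_image.mpr ⟨i, Finset.mem_univ _, ?_⟩
              simp [hne]
            have h1 := Finset.card_le_card hsub
            have h2 := Finset.pred_card_le_card_erase (s := univ.image col) (a := cv)
            omega
    · intro a ha hfa
      rcases List.mem_append.mp ha with ha | ha
      · exact hB a ha hfa
      · have : a = w := by simpa using ha
        subst this
        exact absurd hfa hf

lemma step_smul {n : ℕ} (hn : 2 ≤ n) (acc : List (Fin n → ℂ)) (l : ℕ) (h : Inv n acc l)
    (u : Fin n → ℂ) (c : ℂ) (hu : u ∈ acc ∨ u = 0) : Inv n (acc ++ [c • u]) (l + 1) := by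
  classical
  obtain ⟨β, γ, hl, hA, S, hS, hB⟩ := h
  have hsupp : ∀ i, (c • u) i ≠ 0 → u i ≠ 0 := by
    intro i hi h0
    apply hi
    simp [h0]
  refine ⟨β, γ, by omega, ?_, S, hS, ?_⟩
  · rcases hA with hA | ⟨hnf, col, hmono, hcard⟩
    · exact Or.inl hA
    · right
      refine ⟨?_, col, ?_, hcard⟩
      · intro a ha
        rcases List.mem_append.mp ha with ha | ha
        · exact hnf a ha
        · have : a = c • u := by simpa using ha
          subst this
          intro hf
          rcases hu with hu | hu
          · exact hnf u hu (fun i => hsupp i (hf i))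
          · subst hu
            exact not_full_zero hn (fun i => hsupp i (hf i))
      · intro a ha
        rcases List.mem_append.mp ha with ha | ha
        · exact hmono a ha
        · have : a = c • u := by simpa using ha
          subst this
          intro i j hi hj
          rcases hu with hu | hu
          · exact hmono u hu i j (hsupp i hi) (hsupp j hj)
          · subst hu
            exact absurd rfl (hsupp i hi)
  · intro a ha hfa
    rcases List.mem_append.mp ha with ha | ha
    · exact hB a ha hfa
    · have : a = c • u := by simpa using ha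
      subst this
      rcases hu with hu | hu
      · obtain ⟨s, hs, c', hc'⟩ := hB u hu (fun i => hsupp i (hfa i))
        exact ⟨s, hs, c * c', by rw [hc', smul_smul]⟩
      · subst hu
        exact absurd (fun i => hsupp i (hfa i)) (not_full_zero hn)

/-- the unit coefficient vectors: the inputs, as linear forms -/
def basisList (n : ℕ) : List (Fin n → ℂ) := List.ofFn (fun k : Fin n => Pi.single k (1 : ℂ))

lemma inv_init {n : ℕ} (hn : 2 ≤ n) : Inv n (basisList n) 0 := by
  classical
  refine ⟨0, 0, le_rfl, Or.inr ⟨?_, id, ?_, ?_⟩, ∅, by simp, ?_⟩
  · intro a ha hf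
    obtain ⟨k, rfl⟩ := List.mem_ofFn.mp ha
    by_cases hk : k = ⟨0, by omega⟩
    · have := hf ⟨1, by omega⟩
      apply this
      rw [Pi.single_apply, if_neg]
      rw [hk]
      simp [Fin.ext_iff]
    · have := hf ⟨0, by omega⟩
      apply this
      rw [Pi.single_apply, if_neg]
      exact fun h => hk h.symm
  · intro a ha i j hi hj
    obtain ⟨k, rfl⟩ := List.mem_ofFn.mp ha
    have h1 : i = k := by
      by_contra h
      exact hi (by rw [Pi.single_apply, if_neg h])
    have h2 : j = k := by
      by_contra h
      exact hj (by rw [Pi.single_apply, if_neg h])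
    simp [h1, h2]
  · simp
  · intro a ha hf
    exfalso
    obtain ⟨k, rfl⟩ := List.mem_ofFn.mp ha
    by_cases hk : k = ⟨0, by omega⟩
    · have := hf ⟨1, by omega⟩
      apply this
      rw [Pi.single_apply, if_neg]
      rw [hk]
      simp [Fin.ext_iff]
    · have := hf ⟨0, by omega⟩
      apply this
      rw [Pi.single_apply, if_neg]
      exact fun h => hk h.symm

lemma inv_run {n : ℕ} (hn : 2 ≤ n) (gs : List Gate) : Inv n (run (basisList n) gs) gs.length := by
  induction gs using List.reverseRecOn with
  | nil => simpa [run] using inv_init hn
  | append_singleton gs g ih =>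
    rw [run_concat, List.length_append, List.length_singleton]
    cases g with
    | add i j =>
      refine step_binary hn _ _ ih _ _ _ (getD_mem_or _ i) (getD_mem_or _ j) ?_
      intro k hk
      by_contra hcon
      push Not at hcon
      apply hk
      show ((run (basisList n) gs).getD i 0 + (run (basisList n) gs).getD j 0) k = 0
      rw [Pi.add_apply, hcon.1, hcon.2, add_zero]
    | sub i j =>
      refine step_binary hn _ _ ih _ _ _ (getD_mem_or _ i) (getD_mem_or _ j) ?_
      intro k hk
      by_contra hcon
      push Not at hcon
      apply hk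
      show ((run (basisList n) gs).getD i 0 - (run (basisList n) gs).getD j 0) k = 0
      rw [Pi.sub_apply, hcon.1, hcon.2, sub_zero]
    | smul c i => exact step_smul hn _ _ ih _ c (getD_mem_or _ i)

/-- Every linear circuit (gates `u+v`, `u-v`, `c•u` with arbitrary complex `c`, each of cost one,
values reusable) that computes the unnormalised discrete Fourier transform of order `n ≥ 2` exactly
has at least `2n-2` gates. -/
theorem result (n : ℕ) (hn : 2 ≤ n) (gs : List Gate) (out : Fin n → ℕ)
    (h : ∀ (x : Fin n → ℂ) (j : Fin n), (run (List.ofFn x) gs).getD (out j) 0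
      = ∑ k : Fin n, Complex.exp (2 * Real.pi * Complex.I / n) ^ (j.val * k.val) * x k) :
    2 * n - 2 ≤ gs.length := by
  classical
  set ζ := Complex.exp (2 * Real.pi * Complex.I / n) with hζ
  have hprim : IsPrimitiveRoot ζ n := Complex.isPrimitiveRoot_exp n (by omega)
  have hζ0 : ζ ≠ 0 := Complex.exp_ne_zero _
  set acc := run (basisList n) gs with hacc
  -- the outputs as coefficient vectors
  have hrow : ∀ j : Fin n, acc.getD (out j) 0 = fun k : Fin n => ζ ^ (j.val * k.val) := by
    intro j
    funext k
    let φ : (Fin n → ℂ) →ₗ[ℂ] ℂ := LinearMap.proj k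
    have h1 := h (Pi.single k 1) j
    have h2 : List.ofFn (Pi.single k (1 : ℂ) : Fin n → ℂ) = (basisList n).map φ := by
      unfold basisList
      rw [List.map_ofFn]
      congr 1
      funext i
      simp only [Function.comp, φ, LinearMap.proj_apply]
      rw [Pi.single_apply, Pi.single_apply]
      by_cases hik : i = k
      · simp [hik]
      · rw [if_neg hik, if_neg (fun h => hik h.symm)]
    rw [h2, run_map] at h1
    have h3 := List.getD_map (run (basisList n) gs) (0 : Fin n → ℂ) (n := out j) φ
    rw [map_zero] at h3
    rw [h3] at h1
    simp only [φ, LinearMap.proj_apply] at h1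
    rw [← hacc] at h1
    rw [h1]
    rw [Finset.sum_eq_single k]
    · simp
    · intro b _ hb
      rw [Pi.single_apply, if_neg hb, mul_zero]
    · intro hk
      exact absurd (Finset.mem_univ k) hk
  have hfull : ∀ j : Fin n, Full (acc.getD (out j) 0) := by
    intro j k
    rw [hrow j]
    exact pow_ne_zero _ hζ0
  have hmem : ∀ j : Fin n, acc.getD (out j) 0 ∈ acc := by
    intro j
    rcases getD_mem_or acc (out j) with hm | hm
    · exact hm
    · exfalso
      have := hfull j
      rw [hm] at this
      exact not_full_zero hn this
  obtain ⟨β, γ, hl, hA, S, hS, hB⟩ := inv_run hn gs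
  rw [← hacc] at hA hB
  have hβ : n ≤ β + 2 := by
    rcases hA with hA | ⟨hnf, _⟩
    · exact hA
    · exact absurd (hfull ⟨0, by omega⟩) (hnf _ (hmem _))
  have hγ : n ≤ γ := by
    choose s hs c hc using fun j : Fin n => hB _ (hmem j) (hfull j)
    have hinj : Function.Injective s := by
      intro j k hjk
      have e0j := congrFun (hc j) ⟨0, by omega⟩
      have e0k := congrFun (hc k) ⟨0, by omega⟩
      have e1j := congrFun (hc j) ⟨1, by omega⟩
      have e1k := congrFun (hc k) ⟨1, by omega⟩
      rw [hrow j] at e0j e1j
      rw [hrow k] at e0k e1k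
      rw [hjk] at e0j e1j
      simp only [Pi.smul_apply, smul_eq_mul, mul_zero, pow_zero, mul_one] at e0j e0k e1j e1k
      have hs0 : s k ⟨0, by omega⟩ ≠ 0 := by
        intro h0
        rw [h0, mul_zero] at e0k
        exact one_ne_zero e0k
      have hcc : c j = c k := by
        have : c j * s k ⟨0, by omega⟩ = c k * s k ⟨0, by omega⟩ := by rw [← e0j, ← e0k]
        exact mul_right_cancel₀ hs0 this
      have : ζ ^ j.val = ζ ^ k.val := by rw [e1j, e1k, hcc]
      exact Fin.ext (hprim.pow_inj j.isLt k.isLt this)
    have hcard : Fintype.card (Fin n) ≤ S.card := by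
      have := Finset.card_le_card_of_injOn (s := (univ : Finset (Fin n))) (t := S) s
        (fun j _ => hs j) (fun a _ b _ hab => hinj hab)
      simpa using this
    simp at hcard
    omega
  omega

end Vale.Agent.Results.P344.TwoN
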