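import Mathlib
import Vale.Agent.Results.P344.TwoN

namespace Vale.Agent.Results.P344.Totient

open Finset Vale.Agent.Results.P344.TwoN

/-- a scalar gate does not change the two counters of addition gates -/
lemma step_smul' {n : ℕ} (hn : 2 ≤ n) (acc : List (Fin n → ℂ)) (l : ℕ) (h : Inv n acc l)
    (u : Fin n → ℂ) (c : ℂ) (hu : u ∈ acc ∨ u = 0) : Inv n (acc ++ [c • u]) l := by
  classical
  obtain ⟨β, γ, hl, hA, S, hS, hB⟩ := h
  have hsupp : ∀ i, (c • u) i ≠ 0 → u i ≠ 0 := by
    intro i hi h0
    apply hi
    simp [h0]
  refine ⟨β, γ, hl, ?_, S, hS, ?_⟩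
  · rcases hA with hA | ⟨hnf, col, hmono, hcard⟩
    · exact Or.inl hA
    · right
      refine ⟨?_, col, ?_, hcard⟩
      · intro a ha
        rcases List.mem_append.mp ha with ha | ha
        · exact hnf a ha
        · have : a = c • u := by simpa using ha
          subst this
          intro hf
          rcases hu with hu | hu
          · exact hnf u hu (fun i => hsupp i (hf i))
          · subst hu
            exact not_full_zero hn (fun i => hsupp i (hf i))
      · intro a ha
        rcases List.mem_append.mp ha with ha | ha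
        · exact hmono a ha
        · have : a = c • u := by simpa using ha
          subst this
          intro i j hi hj
          rcases hu with hu | hu
          · exact hmono u hu i j (hsupp i hi) (hsupp j hj)
          · subst hu
            exact absurd rfl (hsupp i hi)
  · intro a ha hfa
    rcases List.mem_append.mp ha with ha | ha
    · exact hB a ha hfa
    · have : a = c • u := by simpa using ha
      subst this
      rcases hu with hu | hu
      · obtain ⟨s, hs, c', hc'⟩ := hB u hu (fun i => hsupp i (hfa i))
        exact ⟨s, hs, c * c', by rw [hc', smul_smul]⟩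
      · subst hu
        exact absurd (fun i => hsupp i (hfa i)) (not_full_zero hn)

/-- the coefficients at position `p` of all computed forms lie in a rational span of at most
`δ + 1` complex numbers -/
def InvC (n : ℕ) (p : Fin n) (acc : List (Fin n → ℂ)) (δ : ℕ) : Prop :=
  ∃ T : Finset ℂ, T.card ≤ δ + 1 ∧ ∀ a ∈ acc, a p ∈ Submodule.span ℚ (T : Set ℂ)

def Inv3 (n : ℕ) (p : Fin n) (acc : List (Fin n → ℂ)) (l : ℕ) : Prop :=
  ∃ m δ, m + δ ≤ l ∧ Inv n acc m ∧ InvC n p acc δ

lemma invC_binary {n : ℕ} (p : Fin n) (acc : List (Fin n → ℂ)) (δ : ℕ) (h : InvC n p acc δ)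
    (u v w : Fin n → ℂ) (hu : u ∈ acc ∨ u = 0) (hv : v ∈ acc ∨ v = 0)
    (hw : w p = u p + v p ∨ w p = u p - v p) : InvC n p (acc ++ [w]) δ := by
  obtain ⟨T, hT, hmem⟩ := h
  refine ⟨T, hT, ?_⟩
  have mu : u p ∈ Submodule.span ℚ (T : Set ℂ) := by
    rcases hu with hu | hu
    · exact hmem u hu
    · subst hu; simp
  have mv : v p ∈ Submodule.span ℚ (T : Set ℂ) := by
    rcases hv with hv | hv
    · exact hmem v hv
    · subst hv; simp
  intro a ha
  rcases List.mem_append.mp ha with ha | ha
  · exact hmem a ha
  · have : a = w := by simpa using ha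
    subst this
    rcases hw with hw | hw
    · rw [hw]; exact Submodule.add_mem _ mu mv
    · rw [hw]; exact Submodule.sub_mem _ mu mv

lemma invC_new {n : ℕ} (p : Fin n) (acc : List (Fin n → ℂ)) (δ : ℕ) (h : InvC n p acc δ)
    (w : Fin n → ℂ) : InvC n p (acc ++ [w]) (δ + 1) := by
  classical
  obtain ⟨T, hT, hmem⟩ := h
  refine ⟨insert (w p) T, le_trans (Finset.card_insert_le _ _) (by omega), ?_⟩
  intro a ha
  rcases List.mem_append.mp ha with ha | ha
  · refine Submodule.span_mono ?_ (hmem a ha)
    intro x hx
    exact Finset.mem_coe.mpr (Finset.mem_insert_of_mem (Finset.mem_coe.mp hx))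
  · have : a = w := by simpa using ha
    subst this
    exact Submodule.subset_span (Finset.mem_coe.mpr (Finset.mem_insert_self _ _))

lemma inv3_init {n : ℕ} (hn : 2 ≤ n) (p : Fin n) : Inv3 n p (basisList n) 0 := by
  classical
  refine ⟨0, 0, le_rfl, inv_init hn, {1}, by simp, ?_⟩
  intro a ha
  obtain ⟨k, rfl⟩ := List.mem_ofFn.mp ha
  rw [Pi.single_apply]
  split_ifs
  · exact Submodule.subset_span (by simp)
  · exact Submodule.zero_mem _

lemma inv3_run {n : ℕ} (hn : 2 ≤ n) (p : Fin n) (gs : List Gate) :
    Inv3 n p (run (basisList n) gs) gs.length := by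
  induction gs using List.reverseRecOn with
  | nil => simpa [run] using inv3_init hn p
  | append_singleton gs g ih =>
    rw [run_concat, List.length_append, List.length_singleton]
    obtain ⟨m, δ, hl, hI, hC⟩ := ih
    cases g with
    | add i j =>
      refine ⟨m + 1, δ, by omega, ?_, ?_⟩
      · refine step_binary hn _ _ hI _ _ _ (getD_mem_or _ i) (getD_mem_or _ j) ?_
        intro k hk
        by_contra hcon
        push Not at hcon
        apply hk
        show ((run (basisList n) gs).getD i 0 + (run (basisList n) gs).getD j 0) k = 0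
        rw [Pi.add_apply, hcon.1, hcon.2, add_zero]
      · exact invC_binary p _ _ hC _ _ _ (getD_mem_or _ i) (getD_mem_or _ j) (Or.inl rfl)
    | sub i j =>
      refine ⟨m + 1, δ, by omega, ?_, ?_⟩
      · refine step_binary hn _ _ hI _ _ _ (getD_mem_or _ i) (getD_mem_or _ j) ?_
        intro k hk
        by_contra hcon
        push Not at hcon
        apply hk
        show ((run (basisList n) gs).getD i 0 - (run (basisList n) gs).getD j 0) k = 0
        rw [Pi.sub_apply, hcon.1, hcon.2, sub_zero]
      · exact invC_binary p _ _ hC _ _ _ (getD_mem_or _ i) (getD_mem_or _ j) (Or.inr rfl)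
    | smul c i =>
      exact ⟨m, δ + 1, by omega, step_smul' hn _ _ hI _ c (getD_mem_or _ i), invC_new p _ _ hC _⟩

/-- a rational span that contains all powers of a primitive `n`-th root of unity needs at least
`φ(n)` generators -/
lemma card_ge_totient {n : ℕ} (hn : 0 < n) {ζ : ℂ} (hζ : IsPrimitiveRoot ζ n) (T : Finset ℂ)
    (h : ∀ j : ℕ, ζ ^ j ∈ Submodule.span ℚ (T : Set ℂ)) : n.totient ≤ T.card := by
  have hdeg : (minpoly ℚ ζ).natDegree = n.totient := by
    rw [← Polynomial.cyclotomic_eq_minpoly_rat hζ hn, Polynomial.natDegree_cyclotomic]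
  have hli := linearIndependent_pow (K := ℚ) ζ
  have h1 := finrank_span_eq_card hli
  have h2 : Submodule.span ℚ (Set.range fun i : Fin (minpoly ℚ ζ).natDegree => ζ ^ (i : ℕ))
      ≤ Submodule.span ℚ (T : Set ℂ) := by
    rw [Submodule.span_le]
    rintro _ ⟨i, rfl⟩
    exact h i
  have h3 := Submodule.finrank_mono h2
  have h4 := finrank_span_finset_le_card (R := ℚ) T
  rw [h1, Fintype.card_fin, hdeg] at h3
  exact le_trans h3 h4

/-- Every linear circuit (gates `u+v`, `u-v`, `c•u` with arbitrary complex `c`, each of cost one,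
values reusable) that computes the unnormalised discrete Fourier transform of order `n ≥ 2` exactly
has at least `2n - 3 + φ(n)` gates, where `φ` is Euler's totient function. -/
theorem result (n : ℕ) (hn : 2 ≤ n) (gs : List Gate) (out : Fin n → ℕ)
    (h : ∀ (x : Fin n → ℂ) (j : Fin n), (run (List.ofFn x) gs).getD (out j) 0
      = ∑ k : Fin n, Complex.exp (2 * Real.pi * Complex.I / n) ^ (j.val * k.val) * x k) :
    2 * n - 3 + n.totient ≤ gs.length := by
  classical
  set ζ := Complex.exp (2 * Real.pi * Complex.I / n) with hζ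
  have hprim : IsPrimitiveRoot ζ n := Complex.isPrimitiveRoot_exp n (by omega)
  have hζ0 : ζ ≠ 0 := Complex.exp_ne_zero _
  set acc := run (basisList n) gs with hacc
  -- the outputs as coefficient vectors
  have hrow : ∀ j : Fin n, acc.getD (out j) 0 = fun k : Fin n => ζ ^ (j.val * k.val) := by
    intro j
    funext k
    let φ : (Fin n → ℂ) →ₗ[ℂ] ℂ := LinearMap.proj k
    have h1 := h (Pi.single k 1) j
    have h2 : List.ofFn (Pi.single k (1 : ℂ) : Fin n → ℂ) = (basisList n).map φ := by
      unfold basisList
      rw [List.map_ofFn]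
      congr 1
      funext i
      simp only [Function.comp, φ, LinearMap.proj_apply]
      rw [Pi.single_apply, Pi.single_apply]
      by_cases hik : i = k
      · simp [hik]
      · rw [if_neg hik, if_neg (fun h => hik h.symm)]
    rw [h2, run_map] at h1
    have h3 := List.getD_map (run (basisList n) gs) (0 : Fin n → ℂ) (n := out j) φ
    rw [map_zero] at h3
    rw [h3] at h1
    simp only [φ, LinearMap.proj_apply] at h1
    rw [← hacc] at h1
    rw [h1]
    rw [Finset.sum_eq_single k]
    · simp
    · intro b _ hb
      rw [Pi.single_apply, if_neg hb, mul_zero]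
    · intro hk
      exact absurd (Finset.mem_univ k) hk
  have hfull : ∀ j : Fin n, Full (acc.getD (out j) 0) := by
    intro j k
    rw [hrow j]
    exact pow_ne_zero _ hζ0
  have hmem : ∀ j : Fin n, acc.getD (out j) 0 ∈ acc := by
    intro j
    rcases getD_mem_or acc (out j) with hm | hm
    · exact hm
    · exfalso
      have := hfull j
      rw [hm] at this
      exact not_full_zero hn this
  obtain ⟨m, δ, hl3, ⟨β, γ, hl, hA, S, hS, hB⟩, T, hT, hC⟩ := inv3_run hn ⟨1, by omega⟩ gs
  rw [← hacc] at hA hB hC
  have hβ : n ≤ β + 2 := by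
    rcases hA with hA | ⟨hnf, _⟩
    · exact hA
    · exact absurd (hfull ⟨0, by omega⟩) (hnf _ (hmem _))
  have hγ : n ≤ γ := by
    choose s hs c hc using fun j : Fin n => hB _ (hmem j) (hfull j)
    have hinj : Function.Injective s := by
      intro j k hjk
      have e0j := congrFun (hc j) ⟨0, by omega⟩
      have e0k := congrFun (hc k) ⟨0, by omega⟩
      have e1j := congrFun (hc j) ⟨1, by omega⟩
      have e1k := congrFun (hc k) ⟨1, by omega⟩
      rw [hrow j] at e0j e1j
      rw [hrow k] at e0k e1k
      rw [hjk] at e0j e1j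
      simp only [Pi.smul_apply, smul_eq_mul, mul_zero, pow_zero, mul_one] at e0j e0k e1j e1k
      have hs0 : s k ⟨0, by omega⟩ ≠ 0 := by
        intro h0
        rw [h0, mul_zero] at e0k
        exact one_ne_zero e0k
      have hcc : c j = c k := by
        have : c j * s k ⟨0, by omega⟩ = c k * s k ⟨0, by omega⟩ := by rw [← e0j, ← e0k]
        exact mul_right_cancel₀ hs0 this
      have : ζ ^ j.val = ζ ^ k.val := by rw [e1j, e1k, hcc]
      exact Fin.ext (hprim.pow_inj j.isLt k.isLt this)
    have hcard : Fintype.card (Fin n) ≤ S.card := by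
      have := Finset.card_le_card_of_injOn (s := (univ : Finset (Fin n))) (t := S) s
        (fun j _ => hs j) (fun a _ b _ hab => hinj hab)
      simpa using this
    simp at hcard
    omega
  have hδ : n.totient ≤ δ + 1 := by
    refine le_trans (card_ge_totient (by omega) hprim T (fun j => ?_)) hT
    have hj : j % n < n := Nat.mod_lt _ (by omega)
    have h1 := hC _ (hmem ⟨j % n, hj⟩)
    rw [hrow ⟨j % n, hj⟩] at h1
    simp only [mul_one] at h1
    have h2 : ζ ^ j = ζ ^ (j % n) := by
      conv_lhs => rw [← Nat.div_add_mod j n, pow_add, pow_mul, hprim.pow_eq_one, one_pow, one_mul]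
    rw [h2]
    exact h1
  omega

end Vale.Agent.Results.P344.Totient
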