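import Mathlib
import Vale.Agent.Results.P344.TwoN
import Vale.Agent.Results.P344.Totient

namespace Vale.Agent.Results.P344.Divisors

open Finset Vale.Agent.Results.P344.TwoN Vale.Agent.Results.P344.Totient

/-- restriction of a coefficient vector to the columns indexed by the divisors of `n`
(the divisor `n` itself is read as column `0`) -/
def prj {n : ℕ} (hn : 0 < n) (a : Fin n → ℂ) : {e // e ∈ n.divisors} → ℂ :=
  fun e => a ⟨e.val % n, Nat.mod_lt _ hn⟩

/-- the restricted coefficient vectors of all computed forms lie in a rational span of at most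
`δ + τ(n)` vectors -/
def InvD (n : ℕ) (hn : 0 < n) (acc : List (Fin n → ℂ)) (δ : ℕ) : Prop :=
  ∃ T : Finset ({e // e ∈ n.divisors} → ℂ), T.card ≤ δ + n.divisors.card ∧
    ∀ a ∈ acc, prj hn a ∈ Submodule.span ℚ (T : Set ({e // e ∈ n.divisors} → ℂ))

def Inv4 (n : ℕ) (hn : 0 < n) (acc : List (Fin n → ℂ)) (l : ℕ) : Prop :=
  ∃ m δ, m + δ ≤ l ∧ Inv n acc m ∧ InvD n hn acc δ

lemma prj_zero {n : ℕ} (hn : 0 < n) : prj hn 0 = 0 := rfl

lemma invD_binary {n : ℕ} (hn : 0 < n) (acc : List (Fin n → ℂ)) (δ : ℕ) (h : InvD n hn acc δ)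
    (u v w : Fin n → ℂ) (hu : u ∈ acc ∨ u = 0) (hv : v ∈ acc ∨ v = 0)
    (hw : prj hn w = prj hn u + prj hn v ∨ prj hn w = prj hn u - prj hn v) :
    InvD n hn (acc ++ [w]) δ := by
  obtain ⟨T, hT, hmem⟩ := h
  refine ⟨T, hT, ?_⟩
  have mu : prj hn u ∈ Submodule.span ℚ (T : Set ({e // e ∈ n.divisors} → ℂ)) := by
    rcases hu with hu | hu
    · exact hmem u hu
    · subst hu; rw [prj_zero]; exact Submodule.zero_mem _
  have mv : prj hn v ∈ Submodule.span ℚ (T : Set ({e // e ∈ n.divisors} → ℂ)) := by
    rcases hv with hv | hv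
    · exact hmem v hv
    · subst hv; rw [prj_zero]; exact Submodule.zero_mem _
  intro a ha
  rcases List.mem_append.mp ha with ha | ha
  · exact hmem a ha
  · have : a = w := by simpa using ha
    subst this
    rcases hw with hw | hw
    · rw [hw]; exact Submodule.add_mem _ mu mv
    · rw [hw]; exact Submodule.sub_mem _ mu mv

lemma invD_new {n : ℕ} (hn : 0 < n) (acc : List (Fin n → ℂ)) (δ : ℕ) (h : InvD n hn acc δ)
    (w : Fin n → ℂ) : InvD n hn (acc ++ [w]) (δ + 1) := by
  classical
  obtain ⟨T, hT, hmem⟩ := h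
  refine ⟨insert (prj hn w) T, le_trans (Finset.card_insert_le _ _) (by omega), ?_⟩
  intro a ha
  rcases List.mem_append.mp ha with ha | ha
  · refine Submodule.span_mono ?_ (hmem a ha)
    intro x hx
    exact Finset.mem_coe.mpr (Finset.mem_insert_of_mem (Finset.mem_coe.mp hx))
  · have : a = w := by simpa using ha
    subst this
    exact Submodule.subset_span (Finset.mem_coe.mpr (Finset.mem_insert_self _ _))

lemma invD_init {n : ℕ} (hn : 0 < n) : InvD n hn (basisList n) 0 := by
  classical
  refine ⟨univ.image (fun e : {e // e ∈ n.divisors} =>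
    (Pi.single e (1 : ℂ) : {e // e ∈ n.divisors} → ℂ)), ?_, ?_⟩
  · refine le_trans Finset.card_image_le ?_
    simp
  · intro a ha
    obtain ⟨k, rfl⟩ := List.mem_ofFn.mp ha
    have hsum : prj hn (Pi.single k 1) = ∑ e : {e // e ∈ n.divisors},
        (if (⟨e.val % n, Nat.mod_lt _ hn⟩ : Fin n) = k then (1 : ℚ) else 0) •
          (Pi.single e (1 : ℂ) : {e // e ∈ n.divisors} → ℂ) := by
      funext e'
      rw [Finset.sum_apply, Finset.sum_eq_single e']
      · simp only [prj, Pi.smul_apply, Pi.single_apply, if_true]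
        split_ifs <;> simp
      · intro b _ hb
        simp only [Pi.smul_apply, Pi.single_apply, if_neg (Ne.symm hb), smul_zero]
      · intro h
        exact absurd (Finset.mem_univ _) h
    rw [hsum]
    refine Submodule.sum_mem _ (fun e _ => Submodule.smul_mem _ _ (Submodule.subset_span ?_))
    exact Finset.mem_coe.mpr (Finset.mem_image_of_mem _ (Finset.mem_univ e))

lemma inv4_run {n : ℕ} (hn : 2 ≤ n) (hn0 : 0 < n) (gs : List Gate) :
    Inv4 n hn0 (run (basisList n) gs) gs.length := by
  induction gs using List.reverseRecOn with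
  | nil =>
    have h0 : Inv4 n hn0 (basisList n) 0 := ⟨0, 0, le_rfl, inv_init hn, invD_init hn0⟩
    exact h0
  | append_singleton gs g ih =>
    rw [run_concat, List.length_append, List.length_singleton]
    obtain ⟨m, δ, hl, hI, hC⟩ := ih
    cases g with
    | add i j =>
      refine ⟨m + 1, δ, by omega, ?_, ?_⟩
      · refine step_binary hn _ _ hI _ _ _ (getD_mem_or _ i) (getD_mem_or _ j) ?_
        intro k hk
        by_contra hcon
        push Not at hcon
        apply hk
        show ((run (basisList n) gs).getD i 0 + (run (basisList n) gs).getD j 0) k = 0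
        rw [Pi.add_apply, hcon.1, hcon.2, add_zero]
      · exact invD_binary hn0 _ _ hC _ _ _ (getD_mem_or _ i) (getD_mem_or _ j) (Or.inl rfl)
    | sub i j =>
      refine ⟨m + 1, δ, by omega, ?_, ?_⟩
      · refine step_binary hn _ _ hI _ _ _ (getD_mem_or _ i) (getD_mem_or _ j) ?_
        intro k hk
        by_contra hcon
        push Not at hcon
        apply hk
        show ((run (basisList n) gs).getD i 0 - (run (basisList n) gs).getD j 0) k = 0
        rw [Pi.sub_apply, hcon.1, hcon.2, sub_zero]
      · exact invD_binary hn0 _ _ hC _ _ _ (getD_mem_or _ i) (getD_mem_or _ j) (Or.inr rfl)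
    | smul c i =>
      exact ⟨m, δ + 1, by omega, step_smul' hn _ _ hI _ c (getD_mem_or _ i), invD_new hn0 _ _ hC _⟩

open Polynomial in
/-- the rows of the Fourier matrix, restricted to the divisor columns, are linearly independent
over the rationals -/
lemma rows_li {n : ℕ} (hn : 0 < n) {ζ : ℂ} (hζ : IsPrimitiveRoot ζ n) :
    LinearIndependent ℚ (fun j : Fin n =>
      (fun e : {e // e ∈ n.divisors} => ζ ^ (j.val * e.val))) := by
  rw [Fintype.linearIndependent_iff]
  intro q hq
  set P : ℚ[X] := ∑ j : Fin n, C (q j) * X ^ (j : ℕ) with hP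
  have hroot : ∀ e ∈ n.divisors, aeval (ζ ^ e) P = 0 := by
    intro e he
    have h1 := congrFun hq ⟨e, he⟩
    rw [Finset.sum_apply] at h1
    rw [Pi.zero_apply] at h1
    rw [hP, map_sum]
    rw [← h1]
    refine Finset.sum_congr rfl (fun j _ => ?_)
    simp only [map_mul, aeval_C, map_pow, aeval_X, Pi.smul_apply]
    rw [← pow_mul, mul_comm e j.val, Algebra.smul_def]
  have hdvd : ∀ m ∈ n.divisors, cyclotomic m ℚ ∣ P := by
    intro m hm
    have hmn : m ∣ n := Nat.dvd_of_mem_divisors hm
    have he : n / m ∈ n.divisors :=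
      Nat.mem_divisors.mpr ⟨Nat.div_dvd_of_dvd hmn, hn.ne'⟩
    have hprim : IsPrimitiveRoot (ζ ^ (n / m)) m :=
      hζ.pow hn (Nat.div_mul_cancel hmn).symm
    rw [cyclotomic_eq_minpoly_rat hprim (Nat.pos_of_mem_divisors hm)]
    exact minpoly.dvd ℚ _ (hroot _ he)
  have hprod : (X ^ n - 1 : ℚ[X]) ∣ P := by
    rw [← prod_cyclotomic_eq_X_pow_sub_one hn]
    apply Finset.prod_dvd_of_coprime
    · intro a _ b _ hab
      exact cyclotomic.isCoprime_rat hab
    · exact hdvd
  have hdeg : P.degree < n := degree_sum_fin_lt q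
  have hP0 : P = 0 := by
    refine eq_zero_of_dvd_of_degree_lt hprod ?_
    have : (X ^ n - 1 : ℚ[X]).degree = n := by
      have := degree_X_pow_sub_C hn (1 : ℚ)
      simpa using this
    rw [this]
    exact hdeg
  intro j
  have h2 := congrArg (fun p => p.coeff j.val) hP0
  simp only [hP, finsetSum_coeff, coeff_C_mul, coeff_X_pow, coeff_zero] at h2
  rw [Finset.sum_eq_single j] at h2
  · simpa using h2
  · intro b _ hb
    rw [if_neg, mul_zero]
    intro h
    exact hb (Fin.ext h.symm)
  · intro h
    exact absurd (Finset.mem_univ _) h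

lemma card_ge {n : ℕ} (hn : 0 < n) {ζ : ℂ} (hζ : IsPrimitiveRoot ζ n)
    (T : Finset ({e // e ∈ n.divisors} → ℂ))
    (h : ∀ j : Fin n, (fun e : {e // e ∈ n.divisors} => ζ ^ (j.val * e.val)) ∈
      Submodule.span ℚ (T : Set ({e // e ∈ n.divisors} → ℂ))) : n ≤ T.card := by
  have hli := rows_li hn hζ
  have h1 := finrank_span_eq_card hli
  have h2 : Submodule.span ℚ (Set.range fun j : Fin n =>
      (fun e : {e // e ∈ n.divisors} => ζ ^ (j.val * e.val)))
      ≤ Submodule.span ℚ (T : Set ({e // e ∈ n.divisors} → ℂ)) := by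
    rw [Submodule.span_le]
    rintro _ ⟨j, rfl⟩
    exact h j
  have h3 := Submodule.finrank_mono h2
  have h4 := finrank_span_finset_le_card (R := ℚ) T
  rw [h1, Fintype.card_fin] at h3
  exact le_trans h3 h4

/-- Every linear circuit (gates `u+v`, `u-v`, `c•u` with arbitrary complex `c`, each of cost one,
values reusable) that computes the unnormalised discrete Fourier transform of order `n ≥ 2` exactly
has at least `3n - 2 - τ(n)` gates, where `τ(n)` is the number of divisors of `n`. -/
theorem result (n : ℕ) (hn : 2 ≤ n) (gs : List Gate) (out : Fin n → ℕ)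
    (h : ∀ (x : Fin n → ℂ) (j : Fin n), (run (List.ofFn x) gs).getD (out j) 0
      = ∑ k : Fin n, Complex.exp (2 * Real.pi * Complex.I / n) ^ (j.val * k.val) * x k) :
    3 * n - 2 - n.divisors.card ≤ gs.length := by
  classical
  set ζ := Complex.exp (2 * Real.pi * Complex.I / n) with hζ
  have hprim : IsPrimitiveRoot ζ n := Complex.isPrimitiveRoot_exp n (by omega)
  have hζ0 : ζ ≠ 0 := Complex.exp_ne_zero _
  set acc := run (basisList n) gs with hacc
  -- the outputs as coefficient vectors
  have hrow : ∀ j : Fin n, acc.getD (out j) 0 = fun k : Fin n => ζ ^ (j.val * k.val) := by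
    intro j
    funext k
    let φ : (Fin n → ℂ) →ₗ[ℂ] ℂ := LinearMap.proj k
    have h1 := h (Pi.single k 1) j
    have h2 : List.ofFn (Pi.single k (1 : ℂ) : Fin n → ℂ) = (basisList n).map φ := by
      unfold basisList
      rw [List.map_ofFn]
      congr 1
      funext i
      simp only [Function.comp, φ, LinearMap.proj_apply]
      rw [Pi.single_apply, Pi.single_apply]
      by_cases hik : i = k
      · simp [hik]
      · rw [if_neg hik, if_neg (fun h => hik h.symm)]
    rw [h2, run_map] at h1
    have h3 := List.getD_map (run (basisList n) gs) (0 : Fin n → ℂ) (n := out j) φ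
    rw [map_zero] at h3
    rw [h3] at h1
    simp only [φ, LinearMap.proj_apply] at h1
    rw [← hacc] at h1
    rw [h1]
    rw [Finset.sum_eq_single k]
    · simp
    · intro b _ hb
      rw [Pi.single_apply, if_neg hb, mul_zero]
    · intro hk
      exact absurd (Finset.mem_univ k) hk
  have hfull : ∀ j : Fin n, Full (acc.getD (out j) 0) := by
    intro j k
    rw [hrow j]
    exact pow_ne_zero _ hζ0
  have hmem : ∀ j : Fin n, acc.getD (out j) 0 ∈ acc := by
    intro j
    rcases getD_mem_or acc (out j) with hm | hm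
    · exact hm
    · exfalso
      have := hfull j
      rw [hm] at this
      exact not_full_zero hn this
  have hn0 : 0 < n := by omega
  obtain ⟨m, δ, hl3, ⟨β, γ, hl, hA, S, hS, hB⟩, T, hT, hC⟩ := inv4_run hn hn0 gs
  rw [← hacc] at hA hB hC
  have hβ : n ≤ β + 2 := by
    rcases hA with hA | ⟨hnf, _⟩
    · exact hA
    · exact absurd (hfull ⟨0, by omega⟩) (hnf _ (hmem _))
  have hγ : n ≤ γ := by
    choose s hs c hc using fun j : Fin n => hB _ (hmem j) (hfull j)
    have hinj : Function.Injective s := by
      intro j k hjk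
      have e0j := congrFun (hc j) ⟨0, by omega⟩
      have e0k := congrFun (hc k) ⟨0, by omega⟩
      have e1j := congrFun (hc j) ⟨1, by omega⟩
      have e1k := congrFun (hc k) ⟨1, by omega⟩
      rw [hrow j] at e0j e1j
      rw [hrow k] at e0k e1k
      rw [hjk] at e0j e1j
      simp only [Pi.smul_apply, smul_eq_mul, mul_zero, pow_zero, mul_one] at e0j e0k e1j e1k
      have hs0 : s k ⟨0, by omega⟩ ≠ 0 := by
        intro h0
        rw [h0, mul_zero] at e0k
        exact one_ne_zero e0k
      have hcc : c j = c k := by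
        have : c j * s k ⟨0, by omega⟩ = c k * s k ⟨0, by omega⟩ := by rw [← e0j, ← e0k]
        exact mul_right_cancel₀ hs0 this
      have : ζ ^ j.val = ζ ^ k.val := by rw [e1j, e1k, hcc]
      exact Fin.ext (hprim.pow_inj j.isLt k.isLt this)
    have hcard : Fintype.card (Fin n) ≤ S.card := by
      have := Finset.card_le_card_of_injOn (s := (univ : Finset (Fin n))) (t := S) s
        (fun j _ => hs j) (fun a _ b _ hab => hinj hab)
      simpa using this
    simp at hcard
    omega
  have hδ : n ≤ δ + n.divisors.card := by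
    refine le_trans (card_ge hn0 hprim T (fun j => ?_)) hT
    have h1 := hC _ (hmem j)
    rw [hrow j] at h1
    have h2 : prj hn0 (fun k : Fin n => ζ ^ (j.val * k.val))
        = fun e : {e // e ∈ n.divisors} => ζ ^ (j.val * e.val) := by
      funext e
      show ζ ^ (j.val * (e.val % n)) = ζ ^ (j.val * e.val)
      conv_rhs => rw [← Nat.div_add_mod e.val n, mul_add, pow_add, mul_left_comm, pow_mul,
        hprim.pow_eq_one, one_pow, one_mul]
    rw [h2] at h1
    exact h1
  omega

end Vale.Agent.Results.P344.Divisors
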